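import Vale.Agent.P284.H650.T.Spec
import Vale.Agent.P284.H212.LF
import Vale.Agent.P284.H378.LF

/-!
# P284 (helper553), T3⁺, module T8: local finiteness in the case of full rank

`lfk`: the translates of a sheet of full rank are locally finite modulo `{c = 0, π = 1}`.
-/

open scoped Manifold ContDiff Topology InnerProductSpace ComplexConjugate
open Filter Set Metric

noncomputable section

set_option linter.unusedSectionVars false

namespace Vale.Agent.P284.H553.T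

open Vale.Agent.P272.K Vale.Agent.P284.H894 Vale.Agent.P284.H894.G Vale.Agent.P284.H894.V
  Vale.Agent.P284.H894.W Vale.Agent.P284.H573 Vale.Agent.P284.H213.Grp Vale.Agent.P284.H395
  Vale.Agent.P284.H619 Vale.Agent.P284.H625 Vale.Agent.P284.H378 Vale.Agent.P284.H478.G
  Vale.Agent.P284.H650.T Vale.Agent.P284.H10

/-- the values of a lattice character are discrete -/
theorem disc_of_lat {Γ : Type} [Group Γ] {q : ℕ} {c : Γ → Cm q} (h : LatChar Γ q c) :
    ∃ δ > 0, ∀ g, ‖c g‖ < δ → c g = 0 := by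
  set A : Set (Cm q) := {v | (∃ g, c g = v) ∧ ‖v‖ ≤ 1} \ {0} with hA
  have hfin : A.Finite := (h.disc 1).subset sdiff_subset
  have h0 : (0 : Cm q) ∉ A := fun h' => h'.2 rfl
  have hev : ∀ᶠ v in 𝓝 (0 : Cm q), v ∉ A := hfin.isClosed.isOpen_compl.mem_nhds h0
  obtain ⟨ε, hε, hball⟩ := Metric.eventually_nhds_iff.1 hev
  refine ⟨min ε 1, lt_min hε one_pos, fun g hg => ?_⟩
  by_contra hne
  refine hball (y := c g) ?_ ⟨⟨⟨g, rfl⟩, (hg.trans_le (min_le_right _ _)).le⟩, hne⟩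
  rw [dist_zero_right]
  exact hg.trans_le (min_le_left _ _)

/-- **(T8)** -/
theorem lfk : LFKStmt := by
  have hNI := Vale.Agent.P284.H212.niStmt
  intro n q r m X _ _ _ _ _ _ w E Γ _ _ _ _ p F c K hS W H _ _ _ _ _ _ π Θ v U N 𝒢 hL hDK D hDN
    S₁ hS₁
  obtain ⟨r₀, hr₀, hni⟩ := hNI n q r 0 (q + r) m X E Γ p hS.gal w F c hS.hol hS.eqv W H π Θ v U N
    𝒢 hL D hDN
  refine ⟨r₀, hr₀, fun K₀ hK₀ hNZ => ?_⟩
  by_contra hinf
  have hinf' := Set.Infinite.natEmbedding _ hinf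
  have : FirstCountableTopology E := firstCountable_E (n := n) hS.gal.cov
  choose g hg y hy b hb hSh using fun i => (hinf' i).2
  obtain ⟨y₀, hy₀, θ, hθ, hyθ⟩ := hK₀.tendsto_subseq hy
  obtain ⟨σ, hσ, hmain⟩ := hni (g ∘ θ) (y ∘ θ) y₀ (b ∘ θ) hyθ (hNZ _ hy₀) (fun i => hb _)
    (fun i => hSh _)
  set h : ℕ → ℕ → Γ := fun i j => g (θ (σ i)) * (g (θ (σ j)))⁻¹ with hh
  have hcadd := hS.lat.add
  have hc1 := hS.lat.map_one
  have hcinv := hS.lat.map_inv
  have hone : ∀ i j, (1 : Γ) * ((g ∘ θ) (σ i) * ((g ∘ θ) (σ j))⁻¹) * 1⁻¹ = h i j := by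
    intro i j
    simp [hh]
  -- the periods of `h i j` vanish eventually
  obtain ⟨z₀, hz₀⟩ := hL.good.nonempty hS.gal.cov
  obtain ⟨e', b', F', β', γ', τ', hL'⟩ := hL.chart z₀ hz₀
  obtain ⟨δ, hδ, hdisc⟩ := disc_of_lat hS.lat
  obtain ⟨ρ, hρ, h1⟩ := hmain z₀ hz₀ e' b' F' β' γ' τ' hL' 1 hc1
  obtain ⟨ε, hε, hτ⟩ := Metric.continuousAt_iff.1 hL'.τan.continuousAt δ hδ
  obtain ⟨j₁, hj₁⟩ := h1 ε hε
  have hc0 : ∀ i ≥ j₁, ∀ j ≥ j₁, c (h i j) = 0 := by
    intro i hi j hj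
    obtain ⟨φ, hφ, hφd⟩ := hj₁ i hi j hj
    rw [hone] at hφ
    obtain ⟨-, ⟨a, ha⟩⟩ := hφ.2 _ (mem_ball_self hρ)
    have h2 := hφd _ (mem_ball_self hρ)
    rw [← dist_eq_norm] at h2
    have h3 := hτ h2
    have h4 : a = 0 := Subsingleton.elim _ _
    rw [h4, map_zero] at ha
    have h5 : c (h i j) = τ' (φ (β' (b' (e' (p z₀))))) - τ' (β' (b' (e' (p z₀)))) :=
      (sub_eq_zero.1 ha.symm).symm
    apply hdisc
    rw [h5, ← dist_eq_norm]
    exact h3
  -- `π (h i j) = 1` eventually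
  have hπ1 : ∃ j₀, ∀ i ≥ j₀, ∀ j ≥ j₀, π (h i j) = 1 := by
    by_contra hcon
    push Not at hcon
    choose i hi j hj hne using fun l => hcon (max l j₁)
    have hev : ∀ (P : ℕ → ℕ → Prop), (∃ j₀, ∀ i ≥ j₀, ∀ j ≥ j₀, P i j) →
        ∀ᶠ l in atTop, P (i l) (j l) := by
      rintro P ⟨j₀, hj₀⟩
      filter_upwards [eventually_ge_atTop j₀] with l hl
      exact hj₀ _ ((hl.trans (le_max_left _ _)).trans (hi l)) _
        ((hl.trans (le_max_left _ _)).trans (hj l))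
    have hall := hDK (fun l => h (i l) (j l))
      (fun l => hc0 _ ((le_max_right _ _).trans (hi l)) _ ((le_max_right _ _).trans (hj l)))
      (by
        intro z hz e b F0 β γ τ hC
        obtain ⟨ρ₁, hρ₁, h2⟩ := hmain z hz e b F0 β γ τ hC 1 hc1
        refine ⟨ρ₁, hρ₁, fun ε hε => ?_⟩
        filter_upwards [hev _ (h2 ε hε)] with l hl
        rwa [hone] at hl)
    obtain ⟨l, hl⟩ := hall.exists
    exact hne l hl
  -- a pair of indices
  obtain ⟨j₀, hj₀⟩ := hπ1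
  set j := max j₀ j₁ with hj
  set i := j + 1 with hi
  have hij0 : j₀ ≤ i := by have := le_max_left j₀ j₁; omega
  have hij1 : j₁ ≤ i := by have := le_max_right j₀ j₁; omega
  have hπij := hj₀ i hij0 j (le_max_left _ _)
  have hcij := hc0 i hij1 j (le_max_right _ _)
  have hcoset : (g (θ (σ j)) : Γ ⧸ S₁) = g (θ (σ i)) := by
    rw [QuotientGroup.eq, hS₁]
    have h2 : (g (θ (σ j)))⁻¹ * g (θ (σ i)) = (g (θ (σ j)))⁻¹ * h i j * g (θ (σ j)) := by
      simp [hh, mul_assoc]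
    rw [h2]
    refine ⟨?_, ?_⟩
    · rw [hcadd, hcadd, hcinv, hcij]; simp
    · rw [map_mul, map_mul, hπij, mul_one, ← map_mul, inv_mul_cancel, map_one]
  rw [hg, hg] at hcoset
  have h2 := hinf'.injective (Subtype.ext hcoset)
  have h3 := hσ.injective (hθ.injective h2)
  omega

end Vale.Agent.P284.H553.T
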